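import Vale.Agent.P105.R892.Kah2

set_option linter.all false

/-!
# P105: the characteristic function of the Bernoulli convolution
-/

open MeasureTheory Filter Topology
open scoped ENNReal

namespace Vale.Agent.P105.R892

open Vale.Agent.P105.Salem

theorem charFun_coin (t : ℝ) : charFun (coin.map sgn) t = (Real.cos t : ℂ) := by
  rw [coin_map_sgn, charFun_apply_real]
  have hi : ∀ y : ℝ, Integrable (fun x : ℝ => Complex.exp (t * x * Complex.I))
      ((2⁻¹ : ℝ≥0∞) • Measure.dirac y) := fun y =>
    (integrable_dirac (by simp)).smul_measure (by simp)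
  rw [integral_add_measure (hi 1) (hi (-1)), integral_smul_measure, integral_smul_measure,
    integral_dirac, integral_dirac]
  simp only [ENNReal.toReal_inv, ENNReal.toReal_ofNat, Complex.ofReal_one, mul_one,
    Complex.ofReal_neg, mul_neg, Complex.real_smul, Complex.ofReal_inv, Complex.ofReal_ofNat,
    Complex.ofReal_cos, Complex.cos]
  ring

theorem charFun_step {lam : ℝ} (h0 : 0 < lam) (h1 : lam < 1) (t : ℝ) :
    charFun (bernConv lam) t = (Real.cos t : ℂ) * charFun (bernConv lam) (lam * t) := by
  have hP : IsProbabilityMeasure (bernConv lam) := isProbabilityMeasure_bernConv h0 h1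
  have h2 : IsProbabilityMeasure ((bernConv lam).map (lam * ·)) :=
    Measure.isProbabilityMeasure_map (by fun_prop)
  have h3 : IsProbabilityMeasure (coin.map sgn) :=
    Measure.isProbabilityMeasure_map measurable_sgn.aemeasurable
  conv_lhs => rw [bernConv_step h0 h1]
  rw [charFun_conv, charFun_coin, charFun_map_mul]

theorem charFun_prod {lam : ℝ} (h0 : 0 < lam) (h1 : lam < 1) (t : ℝ) (N : ℕ) :
    charFun (bernConv lam) t = ((∏ n ∈ Finset.range N, Real.cos (t * lam ^ n) : ℝ) : ℂ) *
      charFun (bernConv lam) (t * lam ^ N) := by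
  induction N with
  | zero => simp
  | succ N ih =>
    rw [ih, charFun_step h0 h1 (t * lam ^ N), Finset.prod_range_succ, Complex.ofReal_mul,
      mul_assoc, pow_succ, show lam * (t * lam ^ N) = t * (lam ^ N * lam) by ring]

theorem charFun_eq {lam : ℝ} (h0 : 0 < lam) (h1 : lam < 1) (t : ℝ) :
    charFun (bernConv lam) t = (nuHat lam t : ℂ) := by
  have hP : IsProbabilityMeasure (bernConv lam) := isProbabilityMeasure_bernConv h0 h1
  have a1 : Tendsto (fun N : ℕ => ((∏ n ∈ Finset.range N, Real.cos (t * lam ^ n) : ℝ) : ℂ))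
      atTop (𝓝 (nuHat lam t : ℂ)) :=
    (Complex.continuous_ofReal.tendsto _).comp (nuHat_tendsto h0 h1 t)
  have a2 : Tendsto (fun N : ℕ => charFun (bernConv lam) (t * lam ^ N)) atTop (𝓝 1) := by
    have b1 : Tendsto (fun N : ℕ => t * lam ^ N) atTop (𝓝 (t * 0)) :=
      (tendsto_pow_atTop_nhds_zero_of_lt_one h0.le h1).const_mul t
    have b2 := ((continuous_charFun (μ := bernConv lam)).tendsto (t * 0)).comp b1
    simpa [Function.comp_def] using b2
  have a3 := a1.mul a2
  rw [mul_one] at a3
  refine tendsto_nhds_unique ?_ a3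
  refine (tendsto_congr fun N => ?_).1 tendsto_const_nhds
  exact charFun_prod h0 h1 t N

theorem norm_charFun {lam : ℝ} (h0 : 0 < lam) (h1 : lam < 1) (t : ℝ) :
    ‖charFun (bernConv lam) t‖ = |nuHat lam t| := by
  rw [charFun_eq h0 h1, Complex.norm_real, Real.norm_eq_abs]

theorem charFun_tendsto {lam : ℝ} (h0 : 0 < lam) (h1 : lam < 1)
    (h : Tendsto (nuHat lam) atTop (𝓝 0)) :
    Tendsto (charFun (bernConv lam)) (cocompact ℝ) (𝓝 0) := by
  have e : charFun (bernConv lam) = fun t => (nuHat lam t : ℂ) := funext (charFun_eq h0 h1)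
  have h2 : Tendsto (nuHat lam) atBot (𝓝 0) := by
    have := h.comp tendsto_neg_atBot_atTop
    refine this.congr fun t => ?_
    simp only [Function.comp_apply, nuHat_neg]
  rw [e, cocompact_eq_atBot_atTop, tendsto_sup]
  constructor
  · have := (Complex.continuous_ofReal.tendsto 0).comp h2
    simpa [Function.comp_def] using this
  · have := (Complex.continuous_ofReal.tendsto 0).comp h
    simpa [Function.comp_def] using this

end Vale.Agent.P105.R892
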