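import Vale.Agent.P105.H892.Final

set_option linter.all false

/-!
# P105: all convolution powers are singular
-/

open MeasureTheory Real Filter Topology
open scoped ENNReal

namespace Vale.Agent.P105.R892

open Vale.Agent.P105.Salem

/-- Exchange of a finite and a countable product. -/
theorem map_swap {α : Type} [MeasurableSpace α] (P : Measure α) [IsProbabilityMeasure P] (k : ℕ) :
    (Measure.pi fun _ : Fin k => Measure.infinitePi fun _ : ℕ => P).map (fun ω n i => ω i n) =
      Measure.infinitePi fun _ : ℕ => Measure.pi fun _ : Fin k => P := by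
  have h1 := Measure.infinitePi_map_curry_symm (fun (_ : Fin k) (_ : ℕ) => P)
  have h2 := Measure.infinitePi_map_piCongrLeft (fun _ : ℕ × Fin k => P)
    (Equiv.prodComm (Fin k) ℕ)
  have h3 := Measure.infinitePi_map_curry (fun (_ : ℕ) (_ : Fin k) => P)
  simp only [Measure.infinitePi_eq_pi] at h1 h3
  rw [← h3, ← h2, ← h1, Measure.map_map (by fun_prop) (by fun_prop),
    Measure.map_map (by fun_prop) (by fun_prop)]
  congr 1

/-- The law of the sum of `k` independent copies, as the law of one series. -/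
theorem conv_law {lam : ℝ} (h0 : 0 < lam) (h1 : lam < 1) (k : ℕ) :
    (Measure.pi fun _ : Fin k => bernConv lam).map (fun x => ∑ i, x i) =
      (Measure.infinitePi fun _ : ℕ => Measure.pi fun _ : Fin k => coin).map
        (fun ω => ∑' n : ℕ, (∑ i, sgn (ω n i)) * lam ^ n) := by
  have hP : IsProbabilityMeasure (bernConv lam) := isProbabilityMeasure_bernConv h0 h1
  have hser := measurable_series h0 h1
  have hsw : Measurable (fun (ω : Fin k → ℕ → Bool) (n : ℕ) (i : Fin k) => ω i n) := by
    fun_prop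
  have e1 : (Measure.pi fun _ : Fin k => bernConv lam) =
      (Measure.pi fun _ : Fin k => Measure.infinitePi fun _ : ℕ => coin).map
        (fun ω i => ∑' n : ℕ, sgn (ω i n) * lam ^ n) := by
    unfold bernConv at hP ⊢
    exact (Measure.pi_map_pi (fun _ => hser.aemeasurable)).symm
  have hm2 : Measurable (fun (ω : Fin k → ℕ → Bool) (i : Fin k) =>
      ∑' n : ℕ, sgn (ω i n) * lam ^ n) :=
    measurable_pi_lambda _ fun i => hser.comp (measurable_pi_apply i)
  have hm3 : Measurable (fun (ω : ℕ → Fin k → Bool) =>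
      ∑' n : ℕ, (∑ i, sgn (ω n i)) * lam ^ n) := by
    have : (fun (ω : ℕ → Fin k → Bool) => ∑' n : ℕ, (∑ i, sgn (ω n i)) * lam ^ n) =
        fun ω => ∑ i : Fin k, ∑' n : ℕ, sgn (ω n i) * lam ^ n := by
      funext ω
      rw [← Summable.tsum_finsetSum fun i _ => summable_sgn h0 h1 fun n => ω n i]
      simp_rw [Finset.sum_mul]
    rw [this]
    refine Finset.measurable_sum _ fun i _ => ?_
    exact hser.comp (by fun_prop : Measurable (fun (ω : ℕ → Fin k → Bool) (n : ℕ) => ω n i))
  rw [e1, ← map_swap, Measure.map_map (by fun_prop) hm2, Measure.map_map hm3 hsw]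
  congr 1
  funext ω
  simp only [Function.comp_apply]
  rw [← Summable.tsum_finsetSum fun i _ => summable_sgn h0 h1 fun n => ω i n]
  simp_rw [Finset.sum_mul]

/-- All convolution powers are carried by sets of dimension less than one. -/
theorem conv_dim {lam : ℝ} (h0 : 0 < lam) (hS : IsSalem lam⁻¹)
    (h4 : (minpoly ℚ lam⁻¹).natDegree = 4) (k : ℕ) :
    ∃ A : Set ℝ, MeasurableSet A ∧
      (Measure.pi fun _ : Fin k => bernConv lam).map (fun x => ∑ i, x i) A = 1 ∧ dimH A < 1 := by
  have h1 : lam < 1 := (one_lt_inv₀ h0).1 hS.1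
  have hD : ∀ e : Fin k → Bool, (∑ i, sgn (e i)) =
      0 + 1 * ((∑ i, if e i then (1 : ℤ) else -1 : ℤ) : ℝ) := by
    intro e
    push_cast
    rw [zero_add, one_mul]
    exact Finset.sum_congr rfl fun i _ => by cases e i <;> simp [sgn]
  obtain ⟨A, hA, hA1, hAd⟩ := Dig.digits_dim h0 hS h4 (Measure.pi fun _ : Fin k => coin)
    (fun e => ∑ i, sgn (e i)) 0 1 _ hD
  rw [← conv_law h0 h1 k] at hA1
  exact ⟨A, hA, hA1, hAd⟩

/-- All convolution powers are singular. -/
theorem conv_singular {lam : ℝ} (h0 : 0 < lam) (hS : IsSalem lam⁻¹)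
    (h4 : (minpoly ℚ lam⁻¹).natDegree = 4) (k : ℕ) :
    (Measure.pi fun _ : Fin k => bernConv lam).map (fun x => ∑ i, x i) ⟂ₘ volume := by
  have h1 : lam < 1 := (one_lt_inv₀ h0).1 hS.1
  have hP : IsProbabilityMeasure (bernConv lam) := isProbabilityMeasure_bernConv h0 h1
  obtain ⟨A, hA, hA1, hAd⟩ := conv_dim h0 hS h4 k
  have hpr : IsProbabilityMeasure
      ((Measure.pi fun _ : Fin k => bernConv lam).map (fun x => ∑ i, x i)) :=
    Measure.isProbabilityMeasure_map (by fun_prop)
  exact Dig.singular_of_dim hA hA1 hAd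

theorem conv_hdim {lam : ℝ} (h0 : 0 < lam) (hS : IsSalem lam⁻¹)
    (h4 : (minpoly ℚ lam⁻¹).natDegree = 4) (k : ℕ) :
    hdim ((Measure.pi fun _ : Fin k => bernConv lam).map (fun x => ∑ i, x i)) < 1 := by
  obtain ⟨A, hA, hA1, hAd⟩ := conv_dim h0 hS h4 k
  exact H892.hdim_lt_one hA hA1 hAd

end Vale.Agent.P105.R892
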