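import Vale.Agent.P105.R892.Raj

set_option linter.all false

/-!
# P105: the Fourier transform decays slower than every power (Salem numbers of degree four)
-/

open MeasureTheory Real Filter Topology
open scoped ENNReal

namespace Vale.Agent.P105.R892

open Vale.Agent.P105.Salem

/-- Integrality of `(s - n) ^ k X_j + (t - n) ^ k Y_j`. -/
theorem int_pair {s t : ℝ} {A C n : ℤ} (hA : s + t = A) (hC : s * t = C) {X Y : ℕ → ℝ}
    (hX0 : X 0 = 2) (hX1 : X 1 = s) (hY0 : Y 0 = 2) (hY1 : Y 1 = t)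
    (hX : ∀ j, X (j + 2) = s * X (j + 1) - X j) (hY : ∀ j, Y (j + 2) = t * Y (j + 1) - Y j)
    (j k : ℕ) : ∃ z : ℤ, (s - n) ^ k * X j + (t - n) ^ k * Y j = z := by
  have h0 : ∀ j, (∃ u : ℤ, X j + Y j = u) ∧ (∃ v : ℤ, t * X j + s * Y j = v) ∧
      (∃ u : ℤ, X (j + 1) + Y (j + 1) = u) ∧ (∃ v : ℤ, t * X (j + 1) + s * Y (j + 1) = v) := by
    intro j
    induction j with
    | zero =>
      refine ⟨⟨4, ?_⟩, ⟨2 * A, ?_⟩, ⟨A, ?_⟩, ⟨2 * C, ?_⟩⟩
      · rw [hX0, hY0]; norm_num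
      · rw [hX0, hY0]; push_cast; rw [← hA]; ring
      · rw [zero_add, hX1, hY1, hA]
      · rw [zero_add, hX1, hY1]; push_cast; rw [← hC]; ring
    | succ j ih =>
      obtain ⟨⟨u0, h1⟩, ⟨v0, h2⟩, ⟨u1, h3⟩, ⟨v1, h4⟩⟩ := ih
      refine ⟨⟨u1, h3⟩, ⟨v1, h4⟩, ⟨A * u1 - v1 - u0, ?_⟩, ⟨C * u1 - v0, ?_⟩⟩
      · rw [show j + 1 + 1 = j + 2 by ring, hX, hY]
        push_cast
        rw [← hA, ← h1, ← h3, ← h4]
        ring
      · rw [show j + 1 + 1 = j + 2 by ring, hX, hY]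
        push_cast
        rw [← hC, ← h2, ← h3]
        ring
  have h1 : (∃ u : ℤ, (s - n) ^ k * X j + (t - n) ^ k * Y j = u) ∧
      (∃ v : ℤ, t * ((s - n) ^ k * X j) + s * ((t - n) ^ k * Y j) = v) := by
    induction k with
    | zero =>
      obtain ⟨h2, h3, -, -⟩ := h0 j
      simpa using ⟨h2, h3⟩
    | succ k ih =>
      obtain ⟨⟨u, hu⟩, ⟨v, hv⟩⟩ := ih
      refine ⟨⟨A * u - v - n * u, ?_⟩, ⟨C * u - n * v, ?_⟩⟩
      · push_cast
        rw [← hA, ← hu, ← hv]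
        ring
      · push_cast
        rw [← hC, ← hu, ← hv]
        ring
  exact h1.1

theorem abs_cos_ge {y w : ℝ} {z : ℤ} (h : |y - z| ≤ w) : 1 - (π * w) ^ 2 / 2 ≤ |cos (π * y)| := by
  have h1 : cos (π * y) = (-1) ^ z * cos (π * (y - z)) := by
    rw [show π * (y - z) = π * y - z * π by ring, cos_sub_int_mul_pi, ← mul_assoc,
      ← mul_zpow, neg_one_mul, neg_neg, one_zpow, one_mul]
  rw [h1, abs_mul, abs_zpow, abs_neg, abs_one, one_zpow, one_mul]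
  refine le_trans ?_ (le_abs_self _)
  refine le_trans ?_ (one_sub_sq_div_two_le_cos (x := π * (y - z)))
  have h2 : (π * (y - z)) ^ 2 ≤ (π * w) ^ 2 := by
    rw [mul_pow, mul_pow, ← sq_abs (y - z)]
    have := abs_nonneg (y - z)
    gcongr
  linarith

/-- `nuHat` does not vanish at `y` if none of the cosines vanishes. -/
theorem nuHat_ne_zero {b : ℝ} (hb : 1 < b) {y : ℝ} (h : ∀ n : ℕ, cos (y * b⁻¹ ^ n) ≠ 0) :
    nuHat b⁻¹ y ≠ 0 := by
  have h0 : (0 : ℝ) < b⁻¹ := by positivity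
  have h1 : b⁻¹ < 1 := inv_lt_one_of_one_lt₀ hb
  have h2 : Tendsto (fun N : ℕ => |y * b⁻¹ ^ N| * (1 - b⁻¹)⁻¹) atTop (𝓝 0) := by
    have h3 := (((tendsto_pow_atTop_nhds_zero_of_lt_one h0.le h1).const_mul y).abs).mul_const
      (1 - b⁻¹)⁻¹
    simpa using h3
  obtain ⟨N, hN⟩ := (h2.eventually (gt_mem_nhds one_pos)).exists
  intro hz
  have h3 := nuHat_prod h0 h1 y N
  rw [hz, eq_comm, mul_eq_zero] at h3
  rcases h3 with h3 | h3
  · obtain ⟨n, -, hn⟩ := Finset.prod_eq_zero_iff.1 h3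
    exact h n hn
  · have h4 := one_sub_nuHat h0 h1 (y * b⁻¹ ^ N)
    rw [h3, sub_zero, abs_one] at h4
    linarith

theorem nuHat_lower {b : ℝ} (hb : 1 < b) {y q : ℝ} (hq : 0 ≤ q)
    (h : ∀ j : ℕ, 1 ≤ j → q ≤ |cos (y * b ^ j)|) (N : ℕ) :
    q ^ N * |nuHat b⁻¹ y| ≤ |nuHat b⁻¹ (y * b ^ N)| := by
  have hb0 : (0 : ℝ) < b := by linarith
  induction N with
  | zero => simp
  | succ N ih =>
    have h1 := nuHat_step (lam := b⁻¹) (by positivity) (inv_lt_one_of_one_lt₀ hb) (y * b ^ (N + 1))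
    have h2 : y * b ^ (N + 1) * b⁻¹ = y * b ^ N := by
      rw [pow_succ]
      field_simp
    rw [h2] at h1
    rw [h1, abs_mul, pow_succ', mul_assoc]
    exact mul_le_mul (h (N + 1) (by omega)) ih (by positivity) (abs_nonneg _)

end Vale.Agent.P105.R892
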