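import Vale.Agent.P105.R892.Kah

set_option linter.all false

/-!
# P105: the Fourier transform decays slower than every power: the theorem
-/

open MeasureTheory Real Filter Topology
open scoped ENNReal

namespace Vale.Agent.P105.R892

open Vale.Agent.P105.Salem

open Polynomial in
/-- The cosines do not vanish. -/
theorem cos_ne_zero_of_small {b : ℝ} {ζ : ℂ} {n : ℤ} {k : ℕ} (hb : 1 < b) (hζ : ‖ζ‖ = 1)
    (hG : ∀ G : ℤ[X], aeval b G = 0 → aeval ζ G = 0)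
    (hsm : 2 * |2 * ζ.re - n| ^ k < 1) (j m : ℕ) :
    cos (π * ((b + b⁻¹ - n) ^ k * b ^ j) * b⁻¹ ^ m) ≠ 0 := by
  have hb0 : b ≠ 0 := by positivity
  intro h0
  rw [cos_eq_zero_iff] at h0
  obtain ⟨z, hz⟩ := h0
  have h1 : 2 * ((b + b⁻¹ - n) ^ k * b ^ j * b⁻¹ ^ m) = ((2 * z + 1 : ℤ) : ℝ) := by
    have h2 : π * (2 * ((b + b⁻¹ - n) ^ k * b ^ j * b⁻¹ ^ m)) = π * ((2 * z + 1 : ℤ) : ℝ) := by
      push_cast
      linear_combination 2 * hz
    exact mul_left_cancel₀ pi_ne_zero h2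
  have h2 : (b ^ 2 - n * b + 1) ^ k = (b + b⁻¹ - n) ^ k * b ^ k := by
    rw [← mul_pow]
    congr 1
    field_simp
    ring
  have h3 : 2 * (b ^ 2 - n * b + 1) ^ k * b ^ j = ((2 * z + 1 : ℤ) : ℝ) * b ^ (k + m) := by
    rw [h2, ← h1, pow_add]
    have h4 : b⁻¹ ^ m * b ^ m = 1 := by rw [← mul_pow, inv_mul_cancel₀ hb0, one_pow]
    linear_combination (-2 * (b + b⁻¹ - n) ^ k * b ^ j * b ^ k) * h4
  have h4 := hG (2 * (X ^ 2 - Polynomial.C n * X + 1) ^ k * X ^ j -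
    Polynomial.C (2 * z + 1) * X ^ (k + m)) (by
      simp only [map_sub, map_mul, map_add, map_pow, aeval_X, aeval_C, map_one, map_ofNat,
        eq_intCast, map_intCast]
      push_cast at h3
      linear_combination h3)
  simp only [map_sub, map_mul, map_add, map_pow, aeval_X, aeval_C, map_one, map_ofNat,
    eq_intCast, map_intCast] at h4
  have h5 : ζ ^ 2 - n * ζ + 1 = ζ * ((2 * ζ.re - n : ℝ) : ℂ) := by
    have h6 : ζ * (starRingEnd ℂ) ζ = 1 := by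
      rw [Complex.mul_conj, Complex.normSq_eq_norm_sq, hζ]; simp
    have h7 : ((2 * ζ.re : ℝ) : ℂ) = ζ + (starRingEnd ℂ) ζ := (Complex.add_conj ζ).symm
    rw [Complex.ofReal_sub, h7]
    push_cast
    linear_combination -h6
  rw [h5, sub_eq_zero] at h4
  have h6 := congrArg norm h4
  simp only [norm_mul, norm_pow, hζ, one_pow, mul_one, one_mul, Complex.norm_real,
    Real.norm_eq_abs, Complex.norm_ofNat] at h6
  have h7 : ((2 : ℂ) * z + 1) = ((2 * z + 1 : ℤ) : ℂ) := by push_cast; ring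
  rw [h7, Complex.norm_intCast] at h6
  rw [h6] at hsm
  have h8 : |(2 * z + 1 : ℤ)| < 1 := by exact_mod_cast hsm
  have h9 := Int.abs_lt_one_iff.1 h8
  omega

/-- **Kahane's theorem in degree four**: no power decay. -/
theorem no_decay {b : ℝ} (h : IsSalem b) (h4 : (minpoly ℚ b).natDegree = 4) {a : ℝ} (ha : 0 < a)
    (M T : ℝ) : ∃ ξ : ℝ, T ≤ ξ ∧ 0 < ξ ∧ M * ξ ^ (-a) < |nuHat b⁻¹ ξ| := by
  have hb : 1 < b := h.1
  have hb0 : (0 : ℝ) < b := by linarith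
  obtain ⟨ζ, A, C, hζ, hA, hC, hirr, hG⟩ := exists_traces h h4
  set s : ℝ := b + b⁻¹ with hs
  set t : ℝ := 2 * ζ.re with ht
  set n : ℤ := round t with hn
  have htn : |t - n| ≤ 1 / 2 := abs_sub_round _
  have ht2 : |t| ≤ 2 := by
    rw [ht, abs_mul, abs_two]
    have := Complex.abs_re_le_norm ζ
    linarith
  have hs2 : 2 < s := by
    have h1 : s - 2 = (b - 1) ^ 2 / b := by
      rw [hs]
      field_simp
      ring
    have h2 : 0 < (b - 1) ^ 2 / b := by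
      have : 0 < b - 1 := by linarith
      positivity
    linarith
  have hn2 : (n : ℝ) ≤ 2 := by
    have h1 : (n : ℝ) ≤ 5 / 2 := by
      have := (abs_le.1 htn).1
      have := (abs_le.1 ht2).2
      linarith
    have h2 : n < 3 := by
      have : (n : ℝ) < 3 := by linarith
      exact_mod_cast this
    have h3 : n ≤ 2 := by omega
    exact_mod_cast h3
  have hsn : 0 < s - n := by linarith
  -- choice of `k`
  have hlim : Tendsto (fun k : ℕ => 1 - (π * (3 * (1 / 2 : ℝ) ^ k)) ^ 2 / 2) atTop (𝓝 1) := by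
    have h1 : Tendsto (fun k : ℕ => (1 / 2 : ℝ) ^ k) atTop (𝓝 0) :=
      tendsto_pow_atTop_nhds_zero_of_lt_one (by norm_num) (by norm_num)
    have h2 := tendsto_const_nhds (x := (1 : ℝ)) |>.sub
      ((((h1.const_mul 3).const_mul π).pow 2).div_const 2)
    simpa using h2
  have hba : b ^ (-a) < 1 := rpow_lt_one_of_one_lt_of_neg hb (by linarith)
  obtain ⟨k, hk2, hkq⟩ := ((eventually_ge_atTop 2).and (hlim.eventually (lt_mem_nhds hba))).exists
  set q : ℝ := 1 - (π * (3 * (1 / 2 : ℝ) ^ k)) ^ 2 / 2 with hq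
  have hq0 : 0 < q := (rpow_pos_of_pos hb0 _).trans hkq
  have hη : |t - n| ^ k ≤ (1 / 2 : ℝ) ^ k := pow_le_pow_left₀ (abs_nonneg _) htn k
  have hη4 : 2 * |t - n| ^ k < 1 := by
    have h1 : (1 / 2 : ℝ) ^ k ≤ (1 / 2 : ℝ) ^ 2 := pow_le_pow_of_le_one (by norm_num) (by norm_num) hk2
    have h2 : (1 / 2 : ℝ) ^ 2 = 1 / 4 := by norm_num
    linarith
  set τ : ℝ := (s - n) ^ k with hτ
  have hτ0 : 0 < τ := by positivity
  -- distance to the integers
  have hX : ∀ j : ℕ, (b ^ (j + 2) + b⁻¹ ^ (j + 2)) =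
      s * (b ^ (j + 1) + b⁻¹ ^ (j + 1)) - (b ^ j + b⁻¹ ^ j) := by
    intro j
    rw [hs]
    have h1 : b * b⁻¹ = 1 := mul_inv_cancel₀ hb0.ne'
    have h2 : b * b⁻¹ ^ (j + 1) = b⁻¹ ^ j := by rw [pow_succ']; rw [← mul_assoc, h1, one_mul]
    have h3 : b⁻¹ * b ^ (j + 1) = b ^ j := by
      rw [pow_succ', ← mul_assoc, mul_comm b⁻¹, h1, one_mul]
    linear_combination -h2 - h3
  have hζ2 : ζ ^ 2 = (t : ℂ) * ζ - 1 := by
    have h6 : ζ * (starRingEnd ℂ) ζ = 1 := by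
      rw [Complex.mul_conj, Complex.normSq_eq_norm_sq, hζ]; simp
    have h7 : ((t : ℝ) : ℂ) = ζ + (starRingEnd ℂ) ζ := (Complex.add_conj ζ).symm
    rw [h7]
    linear_combination -h6
  have hY : ∀ j : ℕ, 2 * (ζ ^ (j + 2)).re = t * (2 * (ζ ^ (j + 1)).re) - 2 * (ζ ^ j).re := by
    intro j
    have h1 : ζ ^ (j + 2) = (t : ℂ) * ζ ^ (j + 1) - ζ ^ j := by
      rw [pow_add, hζ2]; ring
    rw [h1, Complex.sub_re, Complex.re_ofReal_mul]
    ring
  have hint : ∀ j : ℕ, ∃ z : ℤ, τ * (b ^ j + b⁻¹ ^ j) + (t - n) ^ k * (2 * (ζ ^ j).re) = z :=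
    fun j => int_pair (X := fun j => b ^ j + b⁻¹ ^ j) (Y := fun j => 2 * (ζ ^ j).re) hA hC
      (by norm_num) (by simp [hs]) (by simp) (by simp [ht]) hX hY j k
  have hdist : ∀ j : ℕ, τ * b⁻¹ ^ j ≤ (1 / 2 : ℝ) ^ k → q ≤ |cos (π * (τ * b ^ j))| := by
    intro j hj
    obtain ⟨z, hz⟩ := hint j
    refine abs_cos_ge (z := z) ?_
    rw [← hz]
    have h1 : τ * b ^ j - (τ * (b ^ j + b⁻¹ ^ j) + (t - n) ^ k * (2 * (ζ ^ j).re)) =
        -(τ * b⁻¹ ^ j + (t - n) ^ k * (2 * (ζ ^ j).re)) := by ring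
    rw [h1, abs_neg]
    refine (abs_add_le _ _).trans ?_
    have h2 : |τ * b⁻¹ ^ j| = τ * b⁻¹ ^ j := abs_of_pos (by positivity)
    have h3 : |(t - n) ^ k * (2 * (ζ ^ j).re)| ≤ (1 / 2 : ℝ) ^ k * 2 := by
      rw [abs_mul, abs_pow]
      refine mul_le_mul hη ?_ (abs_nonneg _) (by positivity)
      rw [abs_mul, abs_two]
      have h4 := Complex.abs_re_le_norm (ζ ^ j)
      rw [norm_pow, hζ, one_pow] at h4
      linarith
    linarith
  -- the starting level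
  obtain ⟨J, hJ⟩ : ∃ J : ℕ, ∀ j ≥ J, τ * b⁻¹ ^ j ≤ (1 / 2 : ℝ) ^ k := by
    have h1 : Tendsto (fun j : ℕ => τ * b⁻¹ ^ j) atTop (𝓝 0) := by
      simpa using (tendsto_pow_atTop_nhds_zero_of_lt_one (by positivity : (0:ℝ) ≤ b⁻¹)
        (inv_lt_one_of_one_lt₀ hb)).const_mul τ
    have h2 := h1.eventually (gt_mem_nhds (show (0 : ℝ) < (1 / 2) ^ k by positivity))
    obtain ⟨J, hJ⟩ := eventually_atTop.1 h2
    exact ⟨J, fun j hj => (hJ j hj).le⟩
  set y : ℝ := π * (τ * b ^ J) with hy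
  have hy0 : 0 < y := by positivity
  set c : ℝ := |nuHat b⁻¹ y| with hc
  have hc0 : 0 < c := abs_pos.2 (nuHat_ne_zero hb fun m =>
    cos_ne_zero_of_small hb hζ hG hη4 J m)
  have hlow : ∀ N : ℕ, q ^ N * c ≤ |nuHat b⁻¹ (y * b ^ N)| := by
    refine nuHat_lower hb hq0.le fun j _ => ?_
    have h1 : y * b ^ j = π * (τ * b ^ (J + j)) := by rw [hy, pow_add]; ring
    rw [h1]
    exact hdist _ (hJ _ (by omega))
  -- conclusion
  have hr : 1 < q * b ^ a := by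
    have h1 : b ^ (-a) * b ^ a = 1 := by rw [← rpow_add hb0]; simp
    rw [← h1]
    exact mul_lt_mul_of_pos_right hkq (rpow_pos_of_pos hb0 _)
  have h1 : Tendsto (fun N : ℕ => c * y ^ a * (q * b ^ a) ^ N) atTop atTop :=
    (tendsto_pow_atTop_atTop_of_one_lt hr).const_mul_atTop (by positivity)
  have h2 : Tendsto (fun N : ℕ => y * b ^ N) atTop atTop :=
    (tendsto_pow_atTop_atTop_of_one_lt hb).const_mul_atTop hy0
  obtain ⟨N, hN1, hN2⟩ := ((h1.eventually_gt_atTop M).and (h2.eventually_ge_atTop T)).exists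
  have hξ : 0 < y * b ^ N := by positivity
  refine ⟨y * b ^ N, hN2, hξ, lt_of_lt_of_le ?_ (hlow N)⟩
  rw [rpow_neg hξ.le, ← div_eq_mul_inv, div_lt_iff₀ (rpow_pos_of_pos hξ _)]
  have h3 : (y * b ^ N) ^ a = y ^ a * (b ^ a) ^ N := by
    rw [mul_rpow hy0.le (by positivity), ← rpow_natCast, ← rpow_natCast, ← rpow_mul hb0.le,
      ← rpow_mul hb0.le, mul_comm (N : ℝ) a]
  rw [h3]
  calc M < c * y ^ a * (q * b ^ a) ^ N := hN1
    _ = q ^ N * c * (y ^ a * (b ^ a) ^ N) := by rw [mul_pow]; ring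

end Vale.Agent.P105.R892
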