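import Vale.Agent.P105.R892.CF
import Vale.Agent.P105.R892.Conv

set_option linter.all false

/-!
# P105: the characteristic function is in no `L ^ p`
-/

open MeasureTheory Filter Topology ProbabilityTheory
open scoped ENNReal NNReal

namespace Vale.Agent.P105.R892

open Vale.Agent.P105.Salem

/-- Fubini for the characteristic functions of two probability measures. -/
theorem integral_charFun_comm (μ ν : Measure ℝ) [IsProbabilityMeasure μ] [IsProbabilityMeasure ν] :
    ∫ y, charFun ν y ∂μ = ∫ t, charFun μ t ∂ν := by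
  simp_rw [charFun_apply_real]
  rw [integral_integral_swap]
  · refine integral_congr_ae (Eventually.of_forall fun t => ?_)
    refine integral_congr_ae (Eventually.of_forall fun y => ?_)
    simp only
    rw [mul_comm (y : ℂ)]
  · refine Integrable.of_bound (C := 1) (by fun_prop) (Eventually.of_forall fun p => ?_)
    obtain ⟨x, y⟩ := p
    simp only [Function.uncurry_apply_pair]
    rw [← Complex.ofReal_mul, Complex.norm_exp_ofReal_mul_I]

/-- A probability measure with integrable characteristic function charges an interval by at most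
a constant times its length. -/
theorem measure_ball_le (μ : Measure ℝ) [IsProbabilityMeasure μ]
    (hi : Integrable (charFun μ) volume) {h : ℝ} (hh : 0 < h) (x : ℝ) :
    μ.real {y | |y - x| ≤ h} ≤ Real.exp (1 / 2) * (∫ t, ‖charFun μ t‖) * h := by
  set μ' : Measure ℝ := μ.map (fun y => y - x) with hμ'
  have hm : Measurable fun y : ℝ => y - x := by fun_prop
  have hp : IsProbabilityMeasure μ' := Measure.isProbabilityMeasure_map hm.aemeasurable
  set v : ℝ≥0 := ⟨(h ^ 2)⁻¹, by positivity⟩ with hv
  have hvr : (v : ℝ) = (h ^ 2)⁻¹ := rfl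
  have hv0 : v ≠ 0 := by
    rw [← NNReal.coe_ne_zero, hvr]
    positivity
  have e1 := integral_charFun_comm μ' (gaussianReal 0 v)
  have e2 : ∀ y : ℝ, charFun (gaussianReal 0 v) y =
      ((Real.exp (-(y ^ 2 / (2 * h ^ 2))) : ℝ) : ℂ) := by
    intro y
    rw [charFun_gaussianReal]
    push_cast
    congr 1
    have : ((v : ℝ) : ℂ) = ((h : ℂ) ^ 2)⁻¹ := by
      rw [hvr]
      push_cast
      rfl
    rw [this]
    field_simp
    simp
    ring
  simp_rw [e2] at e1
  rw [integral_complex_ofReal] at e1
  have e3 : ∀ t, ‖charFun μ' t‖ = ‖charFun μ t‖ := by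
    intro t
    have : charFun μ' t = Complex.exp (-(t * x * Complex.I)) * charFun μ t := by
      rw [charFun_apply_real, charFun_apply_real, hμ',
        integral_map hm.aemeasurable (by fun_prop), ← integral_const_mul]
      refine integral_congr_ae (Eventually.of_forall fun y => ?_)
      simp only
      rw [← Complex.exp_add]
      congr 1
      push_cast
      ring
    rw [this, norm_mul, show -((t : ℂ) * x * Complex.I) = ((-(t * x) : ℝ) : ℂ) * Complex.I by
      push_cast; ring, Complex.norm_exp_ofReal_mul_I, one_mul]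
  have e4 : ∫ y, Real.exp (-(y ^ 2 / (2 * h ^ 2))) ∂μ' ≤ (∫ t, ‖charFun μ t‖) * h := by
    have f1 : ∫ y, Real.exp (-(y ^ 2 / (2 * h ^ 2))) ∂μ' =
        ‖∫ t, charFun μ' t ∂(gaussianReal 0 v)‖ := by
      rw [← e1, Complex.norm_real, Real.norm_of_nonneg]
      exact integral_nonneg fun y => (Real.exp_pos _).le
    rw [f1]
    refine (norm_integral_le_integral_norm _).trans ?_
    rw [integral_gaussianReal_eq_integral_smul hv0, ← integral_mul_const]
    refine integral_mono_of_nonneg (Eventually.of_forall fun t => ?_) (hi.norm.mul_const _)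
      (Eventually.of_forall fun t => ?_)
    · simp only [smul_eq_mul]
      exact mul_nonneg (gaussianPDFReal_nonneg _ _ _) (norm_nonneg _)
    · simp only [smul_eq_mul]
      rw [e3, mul_comm]
      refine mul_le_mul_of_nonneg_left ?_ (norm_nonneg _)
      unfold gaussianPDFReal
      have g1 : Real.exp (-(t - 0) ^ 2 / (2 * v)) ≤ 1 := by
        rw [Real.exp_le_one_iff]
        have : (0 : ℝ) ≤ (t - 0) ^ 2 / (2 * v) := by positivity
        rw [neg_div]
        linarith
      have g2 : (√(2 * Real.pi * v))⁻¹ ≤ h := by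
        rw [inv_le_comm₀ (by positivity) hh]
        apply Real.le_sqrt_of_sq_le
        rw [hvr, inv_pow]
        have : (0 : ℝ) < (h ^ 2)⁻¹ := by positivity
        nlinarith [Real.pi_gt_three]
      calc (√(2 * Real.pi * v))⁻¹ * Real.exp (-(t - 0) ^ 2 / (2 * v)) ≤ h * 1 := by gcongr
        _ = h := mul_one h
  have e5 : μ.real {y | |y - x| ≤ h} = μ'.real {y | |y| ≤ h} := by
    rw [hμ', measureReal_def, measureReal_def, Measure.map_apply hm
      (measurableSet_le (by fun_prop) (by fun_prop))]
    rfl
  have e6 : Real.exp (-(1 / 2)) * μ'.real {y | |y| ≤ h} ≤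
      ∫ y, Real.exp (-(y ^ 2 / (2 * h ^ 2))) ∂μ' := by
    have hms : MeasurableSet {y : ℝ | |y| ≤ h} := measurableSet_le (by fun_prop) (by fun_prop)
    have hig : Integrable (fun y : ℝ => Real.exp (-(y ^ 2 / (2 * h ^ 2)))) μ' := by
      refine Integrable.of_bound (C := 1) (by fun_prop) (Eventually.of_forall fun y => ?_)
      rw [Real.norm_of_nonneg (Real.exp_pos _).le, Real.exp_le_one_iff]
      have : (0 : ℝ) ≤ y ^ 2 / (2 * h ^ 2) := by positivity
      linarith
    calc Real.exp (-(1 / 2)) * μ'.real {y | |y| ≤ h} =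
        ∫ y in {y | |y| ≤ h}, Real.exp (-(1 / 2)) ∂μ' := by
          rw [setIntegral_const, smul_eq_mul, mul_comm]
      _ ≤ ∫ y in {y | |y| ≤ h}, Real.exp (-(y ^ 2 / (2 * h ^ 2))) ∂μ' := by
          refine setIntegral_mono_on (by simp) hig.integrableOn hms fun y hy => ?_
          apply Real.exp_le_exp.2
          have hy' : |y| ≤ h := hy
          have : y ^ 2 ≤ h ^ 2 := by
            rw [← sq_abs y]
            gcongr
          have : y ^ 2 / (2 * h ^ 2) ≤ 1 / 2 := by
            rw [div_le_iff₀ (by positivity)]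
            linarith
          linarith
      _ ≤ _ := setIntegral_le_integral hig (Eventually.of_forall fun y => (Real.exp_pos _).le)
  rw [e5]
  have e7 : Real.exp (1 / 2) * Real.exp (-(1 / 2)) = 1 := by
    rw [← Real.exp_add]
    simp
  calc μ'.real {y | |y| ≤ h} = Real.exp (1 / 2) * (Real.exp (-(1 / 2)) * μ'.real {y | |y| ≤ h}) := by
        rw [← mul_assoc, e7, one_mul]
    _ ≤ Real.exp (1 / 2) * ((∫ t, ‖charFun μ t‖) * h) :=
        mul_le_mul_of_nonneg_left (e6.trans e4) (Real.exp_pos _).le
    _ = _ := by ring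

/-- A measure which charges intervals by at most a constant times their length is absolutely
continuous. -/
theorem ac_of_Ioc {μ : Measure ℝ} [IsFiniteMeasure μ] {c : ℝ} (hc : 0 < c)
    (h : ∀ a b : ℝ, a < b → c * μ.real (Set.Ioc a b) ≤ b - a) : μ ≪ volume := by
  have key : ∀ s : Set ℝ, ENNReal.ofReal c * μ s ≤ volume s := by
    intro s
    have h1 : (ENNReal.ofReal c) • μ.toOuterMeasure ≤ StieltjesFunction.id.outer := by
      unfold StieltjesFunction.outer
      rw [OuterMeasure.le_ofFunction]
      intro s
      rw [StieltjesFunction.length_eq]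
      refine le_iInf fun a => le_iInf fun b => le_iInf fun hs => ?_
      have hs' : s ⊆ Set.Ioc a b := fun x hx => hs ⟨hx, by simp [botSet]⟩
      have h2 : (ENNReal.ofReal c • μ.toOuterMeasure) s ≤ ENNReal.ofReal c * μ (Set.Ioc a b) := by
        rw [OuterMeasure.coe_smul, Pi.smul_apply, smul_eq_mul]
        exact mul_le_mul_right (measure_mono hs') _
      refine h2.trans ?_
      rcases lt_or_ge a b with hab | hab
      · have h3 := h a b hab
        rw [← ofReal_measureReal, ← ENNReal.ofReal_mul hc.le]
        exact ENNReal.ofReal_le_ofReal h3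
      · rw [Set.Ioc_eq_empty (not_lt.2 hab)]
        simp
    have h2 := h1 s
    rw [Real.volume_eq_stieltjes_id, StieltjesFunction.measure]
    exact h2
  intro s hs
  have := key s
  rw [hs, nonpos_iff_eq_zero, mul_eq_zero] at this
  rcases this with h1 | h1
  · rw [ENNReal.ofReal_eq_zero] at h1
    linarith
  · exact h1

/-- A probability measure with integrable characteristic function is absolutely continuous. -/
theorem ac_of_integrable (μ : Measure ℝ) [IsProbabilityMeasure μ]
    (hi : Integrable (charFun μ) volume) : μ ≪ volume := by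
  set K : ℝ := Real.exp (1 / 2) * (∫ t, ‖charFun μ t‖) with hK
  have hK0 : 0 ≤ K := mul_nonneg (Real.exp_pos _).le (integral_nonneg fun t => norm_nonneg _)
  refine ac_of_Ioc (c := (K + 1)⁻¹) (by positivity) fun a b hab => ?_
  have h1 := measure_ball_le μ hi (h := (b - a) / 2) (by linarith) ((a + b) / 2)
  rw [← hK] at h1
  have h2 : μ.real (Set.Ioc a b) ≤ μ.real {y | |y - (a + b) / 2| ≤ (b - a) / 2} := by
    refine measureReal_mono (fun y hy => ?_) (measure_ne_top _ _)
    rw [Set.mem_ofPred_eq, abs_le]
    constructor <;> linarith [hy.1, hy.2]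
  rw [inv_mul_le_iff₀ (by positivity)]
  have h3 : K * ((b - a) / 2) ≤ K * (b - a) := mul_le_mul_of_nonneg_left (by linarith) hK0
  linarith

theorem charFun_conv_pow {lam : ℝ} (h0 : 0 < lam) (h1 : lam < 1) (k : ℕ) (t : ℝ) :
    charFun ((Measure.pi fun _ : Fin k => bernConv lam).map (fun x => ∑ i, x i)) t =
      charFun (bernConv lam) t ^ k := by
  have hP : IsProbabilityMeasure (bernConv lam) := isProbabilityMeasure_bernConv h0 h1
  rw [ProbabilityTheory.charFun_map_sum_pi_eq_prod]
  simp

/-- The characteristic function is in no `L ^ p`, `p` finite. -/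
theorem not_Lp {lam : ℝ} (h0 : 0 < lam) (hS : IsSalem lam⁻¹)
    (h4 : (minpoly ℚ lam⁻¹).natDegree = 4) (p : ℝ) (hp : 0 < p) :
    ¬ Integrable (fun t => ‖charFun (bernConv lam) t‖ ^ p) volume := by
  intro hi
  have h1 : lam < 1 := (one_lt_inv₀ h0).1 hS.1
  have hP : IsProbabilityMeasure (bernConv lam) := isProbabilityMeasure_bernConv h0 h1
  set k : ℕ := ⌈p⌉₊ with hk
  set μ : Measure ℝ := (Measure.pi fun _ : Fin k => bernConv lam).map (fun x => ∑ i, x i) with hμ
  have hpr : IsProbabilityMeasure μ := Measure.isProbabilityMeasure_map (by fun_prop)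
  have hint : Integrable (charFun μ) volume := by
    refine hi.mono (by fun_prop) (Eventually.of_forall fun t => ?_)
    rw [hμ, charFun_conv_pow h0 h1, norm_pow]
    rw [Real.norm_of_nonneg (Real.rpow_nonneg (norm_nonneg _) _), ← Real.rpow_natCast]
    rcases eq_or_lt_of_le (norm_nonneg (charFun (bernConv lam) t)) with h | h
    · rw [← h, Real.zero_rpow hp.ne', Real.zero_rpow]
      have : 0 < ⌈p⌉₊ := Nat.ceil_pos.2 hp
      exact_mod_cast this.ne'
    · exact Real.rpow_le_rpow_of_exponent_ge h (norm_charFun_le_one t) (Nat.le_ceil p)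
  have hac := ac_of_integrable μ hint
  have hsing := conv_singular h0 hS h4 k
  have hz : μ = 0 := Measure.eq_zero_of_absolutelyContinuous_of_mutuallySingular hac hsing
  have := measure_univ (μ := μ)
  rw [hz] at this
  simp at this

end Vale.Agent.P105.R892
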