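import Vale.Agent.P105.Bdl.B1

set_option linter.all false

/-!
# P105: the two traces of a Salem number of degree four; integer sequences close to `x * b ^ n`
-/

open MeasureTheory Real Filter Topology
open scoped ENNReal

namespace Vale.Agent.P105.R892

open Polynomial Vale.Agent.P105.Salem

/-- The traces `b + 1 / b` and `2 Re ζ` of a Salem number of degree four. -/
theorem exists_traces {b : ℝ} (h : IsSalem b) (h4 : (minpoly ℚ b).natDegree = 4) :
    ∃ (ζ : ℂ) (A C : ℤ), ‖ζ‖ = 1 ∧ b + b⁻¹ + 2 * ζ.re = A ∧ (b + b⁻¹) * (2 * ζ.re) = C ∧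
      Irrational (b + b⁻¹) ∧ ∀ G : ℤ[X], aeval b G = 0 → aeval ζ G = 0 := by
  obtain ⟨hb, hint, -, ζ, hζr, hζ⟩ := h
  have hbQ : IsIntegral ℚ b := hint.tower_top
  have hirr : Irreducible (minpoly ℚ b) := minpoly.irreducible hbQ
  have hmon : (minpoly ℚ b).Monic := minpoly.monic hbQ
  have hmin : minpoly ℚ ζ = minpoly ℚ b :=
    (minpoly.eq_of_irreducible_of_monic hirr hζr hmon).symm
  have hζQ : IsIntegral ℚ ζ := ⟨minpoly ℚ b, hmon, hζr⟩
  have h4' : (minpoly ℚ ζ).natDegree = 4 := by rw [hmin, h4]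
  have hmap : minpoly ℚ b = (minpoly ℤ b).map (algebraMap ℤ ℚ) :=
    minpoly.isIntegrallyClosed_eq_field_fractions' ℚ hint
  set F := minpoly ℤ b with hF
  have hFm : F.Monic := minpoly.monic hint
  have hF4 : F.natDegree = 4 := by
    rw [hmap, hFm.natDegree_map] at h4
    exact h4
  obtain ⟨a, ha⟩ : ∃ a, F.coeff 3 = a := ⟨_, rfl⟩
  obtain ⟨c, hc⟩ : ∃ a, F.coeff 2 = a := ⟨_, rfl⟩
  obtain ⟨d, hd⟩ : ∃ a, F.coeff 1 = a := ⟨_, rfl⟩
  obtain ⟨e, he⟩ : ∃ a, F.coeff 0 = a := ⟨_, rfl⟩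
  have hlead : F.coeff 4 = 1 := by rw [← hF4]; exact hFm
  have hFeq : F = X ^ 4 + C a * X ^ 3 + C c * X ^ 2 + C d * X + C e := by
    rw [F.as_sum_range' 5 (by omega)]
    simp only [Finset.sum_range_succ, Finset.sum_range_zero, ha, hc, hd, he, hlead, zero_add,
      ← C_mul_X_pow_eq_monomial]
    simp only [pow_zero, mul_one, pow_one, map_one, one_mul]
    ring
  have hfb : ∀ {K : Type} [Field K] [CharZero K] (z : K), aeval z F =
      z ^ 4 + a * z ^ 3 + c * z ^ 2 + d * z + e := by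
    intro K _ _ z
    rw [hFeq]
    simp
  have hb1 : b ^ 4 + a * b ^ 3 + c * b ^ 2 + d * b + e = 0 := by
    rw [← hfb b]
    exact minpoly.aeval ℤ b
  have hζ1 : ζ ^ 4 + a * ζ ^ 3 + c * ζ ^ 2 + d * ζ + e = 0 := by
    rw [← hfb ζ, ← aeval_map_algebraMap ℚ, ← hmap]
    exact hζr
  have hnorm : ζ * (starRingEnd ℂ) ζ = 1 := by
    rw [Complex.mul_conj, Complex.normSq_eq_norm_sq, hζ]; simp
  have hζ2 : 1 + a * ζ + c * ζ ^ 2 + d * ζ ^ 3 + e * ζ ^ 4 = 0 := by
    have h1 := congrArg (starRingEnd ℂ) hζ1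
    simp only [map_add, map_pow, map_mul, map_intCast, map_zero] at h1
    set z := (starRingEnd ℂ) ζ with hz
    have h2 : ζ ^ 4 * (z ^ 4 + a * z ^ 3 + c * z ^ 2 + d * z + e) = 0 := by rw [h1, mul_zero]
    have h3 : ζ ^ 4 * (z ^ 4 + a * z ^ 3 + c * z ^ 2 + d * z + e) =
        (ζ * z) ^ 4 + a * ζ * (ζ * z) ^ 3 + c * ζ ^ 2 * (ζ * z) ^ 2 + d * ζ ^ 3 * (ζ * z) +
        e * ζ ^ 4 := by ring
    rw [h3, hnorm] at h2
    linear_combination h2
  obtain ⟨e1, e2, e3, e4⟩ := coeff_zero_of_vanish h4' ((e * a - d : ℤ) : ℚ)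
    ((e * c - c : ℤ) : ℚ) ((e * d - a : ℤ) : ℚ) ((e * e - 1 : ℤ) : ℚ)
    (by push_cast; linear_combination (e : ℂ) * hζ1 - hζ2)
  rw [Int.cast_eq_zero] at e1 e2 e3 e4
  have he1 : e = 1 := by
    have h1 : (e - 1) * (e + 1) = 0 := by linear_combination e4
    rcases mul_eq_zero.mp h1 with h2 | h2
    · omega
    · exfalso
      have h3 : e = -1 := by omega
      rw [h3] at e1 e2
      have hroot : (minpoly ℚ b).IsRoot 1 := by
        rw [IsRoot, hmap, eval_map_algebraMap, hfb (1 : ℚ), h3]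
        have h5 : (d : ℚ) = -a := by
          have : d = -a := by omega
          rw [this]; push_cast; ring
        have h6 : (c : ℚ) = 0 := by
          have : c = 0 := by omega
          rw [this]; simp
        rw [h5, h6]
        push_cast
        ring
      have h7 := degree_eq_one_of_irreducible_of_root hirr hroot
      rw [degree_eq_natDegree hmon.ne_zero, h4] at h7
      norm_num at h7
  have hd' : d = a := by rw [he1] at e1; omega
  rw [he1, hd'] at hb1 hζ1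
  have hb0 : b ≠ 0 := by positivity
  have hζ0 : ζ ≠ 0 := by
    intro h0
    rw [h0, norm_zero] at hζ
    exact zero_ne_one hζ
  -- quadratic equations for the traces
  have hy : (b + b⁻¹) ^ 2 + a * (b + b⁻¹) + (c - 2) = 0 := by
    have h1 : b ^ 2 * ((b + b⁻¹) ^ 2 + a * (b + b⁻¹) + (c - 2)) =
        b ^ 4 + a * b ^ 3 + c * b ^ 2 + a * b + (1 : ℤ) := by
      field_simp
      push_cast
      ring
    rw [hb1] at h1
    exact (mul_eq_zero.mp h1).resolve_left (pow_ne_zero _ hb0)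
  have ht : (2 * ζ.re) ^ 2 + a * (2 * ζ.re) + (c - 2) = 0 := by
    have h0 : ((2 * ζ.re : ℝ) : ℂ) = ζ + (starRingEnd ℂ) ζ := (Complex.add_conj ζ).symm
    have h1 : ζ ^ 2 * ((ζ + (starRingEnd ℂ) ζ) ^ 2 + a * (ζ + (starRingEnd ℂ) ζ) + (c - 2)) =
        ζ ^ 4 + a * ζ ^ 3 + c * ζ ^ 2 + a * ζ + (1 : ℤ) := by
      set z := (starRingEnd ℂ) ζ with hz
      push_cast
      linear_combination (ζ * z + 1 + 2 * ζ ^ 2 + a * ζ) * hnorm
    rw [hζ1] at h1
    have h2 := (mul_eq_zero.mp h1).resolve_left (pow_ne_zero _ hζ0)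
    rw [← h0] at h2
    exact_mod_cast h2
  have hlt : 2 * ζ.re < b + b⁻¹ := by
    have h1 : ζ.re ≤ 1 := (Complex.re_le_norm ζ).trans hζ.le
    have h2 : b * b⁻¹ = 1 := mul_inv_cancel₀ hb0
    have h3 : 0 < b⁻¹ := by positivity
    have h4 : b⁻¹ < 1 := inv_lt_one_of_one_lt₀ hb
    nlinarith only [h1, h2, hb]
  have hA : b + b⁻¹ + 2 * ζ.re = ((-a : ℤ) : ℝ) := by
    have h1 : (b + b⁻¹ - 2 * ζ.re) * (b + b⁻¹ + 2 * ζ.re + a) = 0 := by
      linear_combination hy - ht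
    have h2 := (mul_eq_zero.mp h1).resolve_left (by linarith only [hlt])
    push_cast
    linarith only [h2]
  have hC : (b + b⁻¹) * (2 * ζ.re) = ((c - 2 : ℤ) : ℝ) := by
    have h1 : 2 * ζ.re = -a - (b + b⁻¹) := by push_cast at hA; linarith only [hA]
    push_cast
    rw [h1]
    linear_combination -hy
  refine ⟨ζ, -a, c - 2, hζ, hA, hC, ?_, fun G hG => ?_⟩
  · rintro ⟨q, hq⟩
    have h1 : aeval b (X ^ 2 - Polynomial.C q * X + 1 : ℚ[X]) = 0 := by
      simp only [map_add, map_sub, map_mul, map_pow, aeval_X, aeval_C, map_one, eq_ratCast]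
      rw [hq]
      field_simp
      ring
    have hne : (X ^ 2 - Polynomial.C q * X + 1 : ℚ[X]) ≠ 0 := by
      intro h0
      have h2 := congrArg (fun p : ℚ[X] => p.coeff 2) h0
      simp [coeff_X, coeff_one] at h2
    have h2 := natDegree_le_natDegree (minpoly.degree_le_of_ne_zero ℚ b hne h1)
    rw [h4] at h2
    have h3 : (X ^ 2 - Polynomial.C q * X + 1 : ℚ[X]).natDegree ≤ 2 := by compute_degree
    omega
  · have h1 : aeval b (G.map (algebraMap ℤ ℚ)) = 0 := by rwa [aeval_map_algebraMap]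
    obtain ⟨R, hR⟩ := minpoly.dvd ℚ b h1
    have h2 : aeval ζ (G.map (algebraMap ℤ ℚ)) = 0 := by
      rw [hR, map_mul, hζr, zero_mul]
    rwa [aeval_map_algebraMap] at h2

end Vale.Agent.P105.R892
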