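import Vale.Agent.P105.R892.Seq
import Vale.Agent.P105.R892.Traces

set_option linter.all false

/-!
# P105: the Fourier transform of a Bernoulli convolution tends to zero (Salem numbers of degree
four)
-/

open MeasureTheory Real Filter Topology
open scoped ENNReal

namespace Vale.Agent.P105.R892

open Vale.Agent.P105.Salem

/-- Finite products of cosines along `α b ^ j`. -/
noncomputable def pr (b α : ℝ) (J : ℕ) : ℝ := ∏ j ∈ Finset.range J, |cos (α * b ^ j)|

theorem pr_nonneg (b α : ℝ) (J : ℕ) : 0 ≤ pr b α J := Finset.prod_nonneg fun _ _ => abs_nonneg _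

theorem pr_succ (b α : ℝ) (J : ℕ) : pr b α (J + 1) = pr b α J * |cos (α * b ^ J)| :=
  Finset.prod_range_succ _ _

theorem pr_antitone (b α : ℝ) : Antitone (pr b α) :=
  antitone_nat_of_succ_le fun J => by
    rw [pr_succ]
    exact mul_le_of_le_one_right (pr_nonneg _ _ _) (abs_cos_le_one _)

theorem continuous_pr (b : ℝ) (J : ℕ) : Continuous fun α => pr b α J := by
  unfold pr
  fun_prop

/-- Decomposition of `nuHat` along the powers of `b`. -/
theorem nuHat_scale {b : ℝ} (hb : 1 < b) (α : ℝ) (m : ℕ) :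
    |nuHat b⁻¹ (α * b ^ m)| = pr b α (m + 1) * |nuHat b⁻¹ (α * b⁻¹)| := by
  have hb0 : (0 : ℝ) < b := by linarith
  have h := nuHat_prod (lam := b⁻¹) (by positivity) (inv_lt_one_of_one_lt₀ hb) (α * b ^ m) (m + 1)
  rw [h, abs_mul, Finset.abs_prod, pr, ← Finset.prod_range_reflect]
  congr 1
  · refine Finset.prod_congr rfl fun j hj => ?_
    rw [Finset.mem_range] at hj
    congr 2
    rw [mul_assoc]
    congr 1
    rw [inv_pow, ← div_eq_mul_inv, div_eq_iff (by positivity), ← pow_add]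
    congr 1
    omega
  · congr 2
    rw [pow_succ, inv_pow]
    field_simp

theorem le_pr {b : ℝ} (hb : 1 < b) {α δ : ℝ} {m : ℕ} (h : δ ≤ |nuHat b⁻¹ (α * b ^ m)|) {J : ℕ}
    (hJ : J ≤ m + 1) : δ ≤ pr b α J := by
  have hb0 : (0 : ℝ) < b := by linarith
  rw [nuHat_scale hb] at h
  have h1 := abs_nuHat_le (lam := b⁻¹) (by positivity) (inv_lt_one_of_one_lt₀ hb) (α * b⁻¹)
  have h2 := pr_antitone b α hJ
  have h3 := mul_le_of_le_one_right (pr_nonneg b α (m + 1)) h1
  linarith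

/-- If `nuHat` does not tend to zero there is `α` whose products do not tend to zero. -/
theorem exists_alpha {b : ℝ} (hb : 1 < b) (h : ¬ Tendsto (nuHat b⁻¹) atTop (𝓝 0)) :
    ∃ α δ : ℝ, 1 ≤ α ∧ 0 < δ ∧ ∀ J, δ ≤ pr b α J := by
  have hb0 : (0 : ℝ) < b := by linarith
  rw [Metric.tendsto_atTop] at h
  push Not at h
  obtain ⟨δ, hδ, H⟩ := h
  have key : ∀ J : ℕ, ∃ α ∈ Set.Icc 1 b, δ ≤ pr b α J := by
    intro J
    obtain ⟨ξ, hξ, h1⟩ := H (b ^ J)
    rw [Real.dist_eq, sub_zero] at h1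
    have hξ1 : 1 ≤ ξ := (one_le_pow₀ hb.le).trans hξ
    obtain ⟨m, hm1, hm2⟩ := exists_nat_pow_near hξ1 hb
    have hbm : 0 < b ^ m := by positivity
    refine ⟨ξ / b ^ m, ⟨(one_le_div hbm).2 hm1, ?_⟩, ?_⟩
    · rw [div_le_iff₀ hbm, ← pow_succ']
      exact hm2.le
    · refine le_pr hb (m := m) ?_ ?_
      · rwa [div_mul_cancel₀ _ hbm.ne']
      · have : J < m + 1 := (pow_lt_pow_iff_right₀ hb).1 (hξ.trans_lt hm2)
        exact this.le
  set K : ℕ → Set ℝ := fun J => Set.Icc 1 b ∩ {α | δ ≤ pr b α J} with hK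
  have hcl : ∀ J, IsClosed {α | δ ≤ pr b α J} := fun J =>
    isClosed_le continuous_const (continuous_pr b J)
  have hne : (⋂ J, K J).Nonempty := by
    refine IsCompact.nonempty_iInter_of_sequence_nonempty_isCompact_isClosed K ?_ ?_ ?_ ?_
    · rintro J α ⟨h1, h2⟩
      exact ⟨h1, le_trans h2 (pr_antitone b α J.le_succ)⟩
    · intro J
      obtain ⟨α, h1, h2⟩ := key J
      exact ⟨α, h1, h2⟩
    · exact isCompact_Icc.inter_right (hcl 0)
    · exact fun J => isClosed_Icc.inter (hcl J)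
  obtain ⟨α, hα⟩ := hne
  rw [Set.mem_iInter] at hα
  exact ⟨α, δ, (hα 0).1.1, hδ, fun J => (hα J).2⟩

theorem cos_tendsto {b α δ : ℝ} (hδ : 0 < δ) (h : ∀ J, δ ≤ pr b α J) :
    Tendsto (fun j : ℕ => |cos (α * b ^ j)|) atTop (𝓝 1) := by
  have hbdd : BddBelow (Set.range (pr b α)) := ⟨0, by
    rintro _ ⟨J, rfl⟩
    exact pr_nonneg _ _ _⟩
  have h1 := tendsto_atTop_ciInf (pr_antitone b α) hbdd
  set L := ⨅ J, pr b α J with hL
  have hL0 : 0 < L := hδ.trans_le (le_ciInf h)
  have h2 : Tendsto (fun J => pr b α (J + 1)) atTop (𝓝 L) := (tendsto_add_atTop_iff_nat 1).2 h1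
  have h3 := h2.div h1 hL0.ne'
  rw [div_self hL0.ne'] at h3
  refine h3.congr fun J => ?_
  have h4 : pr b α J ≠ 0 := (hδ.trans_le (h J)).ne'
  simp only [Pi.div_apply]
  rw [pr_succ, mul_div_cancel_left₀ _ h4]

/-- The nearest integer is close. -/
theorem abs_sub_round_le (y : ℝ) : |y / π - round (y / π)| ≤ |sin y| / 2 := by
  set e := y / π - round (y / π) with he
  have h1 : |e| ≤ 1 / 2 := abs_sub_round _
  have h2 : |sin y| = |sin (π * e)| := by
    have h3 : π * e = y - round (y / π) * π := by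
      rw [he]
      field_simp
    rw [h3, sin_sub_int_mul_pi, abs_mul, abs_zpow, abs_neg, abs_one, one_zpow, one_mul]
  rw [h2]
  have h4 : |sin (π * e)| = sin (π * |e|) := by
    have h5 : 0 ≤ sin (π * |e|) := sin_nonneg_of_nonneg_of_le_pi (by positivity)
      (by nlinarith [pi_pos])
    rcases le_total 0 e with h6 | h6
    · rw [abs_of_nonneg h6] at h5 ⊢
      exact abs_of_nonneg h5
    · rw [abs_of_nonpos h6] at h5 ⊢
      rw [mul_neg, sin_neg] at h5 ⊢
      exact abs_of_nonpos (by linarith)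
  rw [h4]
  have h5 := mul_le_sin (x := π * |e|) (by positivity) (by nlinarith [pi_pos])
  have h6 : 2 / π * (π * |e|) = 2 * |e| := by
    field_simp
  linarith

/-- **Salem's theorem in degree four**: the Fourier transform of the Bernoulli convolution tends
to zero. -/
theorem nuHat_tendsto_zero {b : ℝ} (h : IsSalem b) (h4 : (minpoly ℚ b).natDegree = 4) :
    Tendsto (nuHat b⁻¹) atTop (𝓝 0) := by
  by_contra hcon
  have hb : 1 < b := h.1
  obtain ⟨α, δ, hα, hδ, H⟩ := exists_alpha hb hcon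
  obtain ⟨ζ, A, C, hζ, hA, hC, hirr, -⟩ := exists_traces h h4
  have h1 := cos_tendsto hδ H
  have h2 : Tendsto (fun j : ℕ => |sin (α * b ^ j)|) atTop (𝓝 0) := by
    have h3 : Tendsto (fun j : ℕ => √(1 - |cos (α * b ^ j)| ^ 2)) atTop (𝓝 (√(1 - 1 ^ 2))) :=
      (tendsto_const_nhds.sub (h1.pow 2)).sqrt
    rw [one_pow, sub_self, sqrt_zero] at h3
    refine h3.congr fun j => ?_
    rw [sq_abs, ← abs_sin_eq_sqrt_one_sub_cos_sq]
  have ht : |2 * ζ.re| ≤ 2 := by
    rw [abs_mul, abs_two]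
    have := Complex.abs_re_le_norm ζ
    linarith
  refine no_seq hb hA hC hirr ht (x := α / π) (by positivity) (fun j => round (α * b ^ j / π)) ?_
  have h3 : Tendsto (fun j : ℕ => |sin (α * b ^ j)| / 2) atTop (𝓝 0) := by
    simpa using h2.div_const 2
  refine squeeze_zero_norm (fun j => ?_) h3
  rw [Real.norm_eq_abs]
  have := abs_sub_round_le (α * b ^ j)
  rwa [show α / π * b ^ j = α * b ^ j / π by ring]

end Vale.Agent.P105.R892
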