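import Vale.Agent.P105.Defs

set_option linter.all false

/-!
# P105: no integer sequence is asymptotic to `x * b ^ n` when `b` is a Salem number of degree four
-/

open Real Filter Topology

namespace Vale.Agent.P105.R892

/-- An integer sequence tending to zero is eventually zero. -/
theorem eventually_zero_of_tendsto {z : ℕ → ℤ} (h : Tendsto (fun j => (z j : ℝ)) atTop (𝓝 0)) :
    ∀ᶠ j in atTop, z j = 0 := by
  have h1 := (Metric.tendsto_nhds.1 h) 1 one_pos
  filter_upwards [h1] with j hj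
  rw [Real.dist_eq, sub_zero] at hj
  have h2 : |z j| < 1 := by exact_mod_cast hj
  exact Int.abs_lt_one_iff.1 h2

/-- A bounded solution of `u (j + 2) = t u (j + 1) - u j`, `|t| < 2`, which tends to zero is
zero. -/
theorem zero_of_rec {t : ℝ} (ht : t ^ 2 < 4) {u : ℕ → ℝ} (hu : ∀ j, u (j + 2) = t * u (j + 1) - u j)
    (h0 : Tendsto u atTop (𝓝 0)) (j : ℕ) : u j = 0 := by
  set Q : ℕ → ℝ := fun j => u (j + 1) ^ 2 - t * u j * u (j + 1) + u j ^ 2 with hQ
  have hc : ∀ j, Q (j + 1) = Q j := by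
    intro j
    simp only [hQ]
    rw [show j + 1 + 1 = j + 2 by ring, hu j]
    ring
  have hc' : ∀ i, Q (j + i) = Q j := by
    intro i
    induction i with
    | zero => rfl
    | succ i ih => rw [← add_assoc, hc, ih]
  have h1 : Tendsto (fun i => u (i + 1)) atTop (𝓝 0) := (tendsto_add_atTop_iff_nat 1).2 h0
  have hQ0 : Tendsto Q atTop (𝓝 0) := by
    have := ((h1.pow 2).sub ((h0.const_mul t).mul h1)).add (h0.pow 2)
    simpa [hQ] using this
  have h2 : Tendsto (fun i => Q (j + i)) atTop (𝓝 0) :=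
    hQ0.comp (tendsto_add_atTop_nat j |>.congr fun i => by ring)
  have h3 : Q j = 0 := by
    refine tendsto_nhds_unique ?_ h2
    simp only [hc']
    exact tendsto_const_nhds
  simp only [hQ] at h3
  have h4 : (u (j + 1) - t * u j / 2) ^ 2 + (1 - t ^ 2 / 4) * u j ^ 2 = 0 := by
    linear_combination h3
  have h5 : 0 ≤ (u (j + 1) - t * u j / 2) ^ 2 := sq_nonneg _
  have h6 : 0 < 1 - t ^ 2 / 4 := by linarith
  have h7 : u j ^ 2 ≤ 0 := by
    by_contra hcon
    push Not at hcon
    have := mul_pos h6 hcon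
    linarith
  exact pow_eq_zero_iff (two_ne_zero) |>.1 (le_antisymm h7 (sq_nonneg _))

theorem no_seq {b t : ℝ} (hb : 1 < b) {A C : ℤ} (hA : b + b⁻¹ + t = A) (hC : (b + b⁻¹) * t = C)
    (hirr : Irrational (b + b⁻¹)) (ht : |t| ≤ 2) {x : ℝ} (hx : 0 < x) (a : ℕ → ℤ)
    (h : Tendsto (fun j => x * b ^ j - a j) atTop (𝓝 0)) : False := by
  have hb0 : b ≠ 0 := by positivity
  set s : ℝ := b + b⁻¹ with hs
  have hbq : b ^ 2 - s * b + 1 = 0 := by
    rw [hs]
    field_simp
    ring
  have ht4 : t ^ 2 < 4 := by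
    have h1 : t ^ 2 ≤ 4 := by
      have := sq_le_sq' (by linarith [abs_nonneg t, (abs_le.1 ht).1]) (abs_le.1 ht).2
      linarith
    rcases h1.lt_or_eq with h2 | h2
    · exact h2
    · exfalso
      have h3 : (t - 2) * (t + 2) = 0 := by linear_combination h2
      rcases mul_eq_zero.1 h3 with h4 | h4
      · exact hirr ⟨A - 2, by push_cast; linarith⟩
      · exact hirr ⟨A + 2, by push_cast; linarith⟩
  set ε : ℕ → ℝ := fun j => x * b ^ j - a j with hε
  have hsh : ∀ i : ℕ, Tendsto (fun j => ε (j + i)) atTop (𝓝 0) := fun i =>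
    (tendsto_add_atTop_iff_nat i).2 h
  set u : ℕ → ℝ := fun j => a (j + 2) - s * a (j + 1) + a j with hu
  have hu1 : ∀ j, u j = -(ε (j + 2) - s * ε (j + 1) + ε j) := by
    intro j
    simp only [hu, hε]
    linear_combination x * b ^ j * hbq
  have hu0 : Tendsto u atTop (𝓝 0) := by
    have h1 := (((hsh 2).sub ((hsh 1).const_mul s)).add h).neg
    simp only [mul_zero, sub_zero, add_zero, neg_zero] at h1
    exact h1.congr fun j => (hu1 j).symm
  have husw : ∀ i : ℕ, Tendsto (fun j => u (j + i)) atTop (𝓝 0) := fun i =>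
    (tendsto_add_atTop_iff_nat i).2 hu0
  set z : ℕ → ℤ := fun j => a (j + 4) - A * a (j + 3) + (2 + C) * a (j + 2) - A * a (j + 1) + a j
    with hz
  have hz1 : ∀ j, (z j : ℝ) = u (j + 2) - t * u (j + 1) + u j := by
    intro j
    simp only [hz, hu]
    push_cast
    rw [← hA, ← hC]
    ring_nf
  have hz0 : Tendsto (fun j => (z j : ℝ)) atTop (𝓝 0) := by
    have h1 := ((husw 2).sub ((husw 1).const_mul t)).add hu0
    simp only [mul_zero, sub_zero, add_zero] at h1
    exact h1.congr fun j => (hz1 j).symm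
  obtain ⟨J, hJ⟩ := eventually_atTop.1 (eventually_zero_of_tendsto hz0)
  have hrec : ∀ j, u (J + (j + 2)) = t * u (J + (j + 1)) - u (J + j) := by
    intro j
    have h1 := hz1 (J + j)
    rw [hJ (J + j) (by omega), Int.cast_zero] at h1
    rw [show J + (j + 2) = J + j + 2 by ring, show J + (j + 1) = J + j + 1 by ring]
    linarith
  have huz : ∀ j, u (J + j) = 0 := by
    refine zero_of_rec ht4 (u := fun j => u (J + j)) hrec ?_
    exact (husw J).congr fun j => by rw [add_comm]
  have haz : ∀ j, J + 1 ≤ j → a j = 0 := by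
    intro j hj
    obtain ⟨i, rfl⟩ : ∃ i, j = J + i + 1 := ⟨j - (J + 1), by omega⟩
    by_contra hne
    have h1 := huz i
    simp only [hu] at h1
    have h2 : (a (J + i + 1) : ℝ) ≠ 0 := by exact_mod_cast hne
    refine hirr ⟨((a (J + i + 2) + a (J + i) : ℤ) : ℚ) / (a (J + i + 1) : ℤ), ?_⟩
    push_cast
    rw [div_eq_iff h2]
    linarith
  have h1 : Tendsto (fun j => x * b ^ j) atTop (𝓝 0) := by
    refine h.congr' ?_
    filter_upwards [eventually_ge_atTop (J + 1)] with j hj
    simp only [hε]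
    rw [haz j hj, Int.cast_zero, sub_zero]
  have h2 : Tendsto (fun j => x * b ^ j) atTop atTop :=
    (tendsto_pow_atTop_atTop_of_one_lt hb).const_mul_atTop hx
  exact not_tendsto_nhds_of_tendsto_atTop h2 0 h1

end Vale.Agent.P105.R892
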